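import Vale.Agent.P216.V706.FB.Base
import Vale.Agent.P216.V754.Col
import Vale.Agent.P216.V670.Top
import Vale.Agent.P216.H977V.PSysTw
import Vale.Agent.P216.V651.PSysPol

/-!
# P216-V, F-BASE: the classes `Eta` of the system of a tower, and of its `[b]`

`etaTw`: `ŷ₁` on 977's `PSys.tw`. `yTw`: the input of 651's `psysPol`. `etaPol`: `ŷ₂` on the system
with `[b]`, `d b = ŷ₁`.
-/

open Polynomial
open Vale.Agent.P216.V609 Vale.Agent.P216.V651 Vale.Agent.P216.V775 Vale.Agent.P216.V670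
open Vale.Agent.P216.H285V (toDga)
open Vale.Agent.P216.V994 (Pair pairOf)
open Vale.Agent.P216.V754 (tri tri_map CCol)

universe w u₁ u₂ u₃ v u v'

namespace Vale.Agent.P216.V706

/-- 754's `CCol`. -/
theorem Col.ofCCol {k : Type*} [Field k] {ι : Type*} [Preorder ι] {A : ι → Type*}
    [∀ i, Ring (A i)] [∀ i, Algebra k (A i)] {B : Type*} [Ring B] [Algebra k B]
    {C : ∀ i, Cdga k (A i)} {f : ∀ i j, i ≤ j → Cdga.Hom (C i) (C j)} {G : Cdga k B}
    {g : ∀ i, Cdga.Hom (C i) G} (H : CCol C f G g) : Col C f G g where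
  comp := H.comp
  ff := H.ff
  surj i _ _ hz := H.surj i hz
  inj i a h := H.inj i a h

variable {k : Type w} [Field k] [CharZero k] {ι : Type v} [Preorder ι]
  {S : PSys.{w, u₁, u₂, u₃, v} k ι} (hZ : S.Zps) {X₀ : CD.{u} k} (K : S.Cone X₀)
  {P : Pair X₀.C} {T : Tw X₀} {ê : P.σ → T.top.A} (h : PTw P T ê)

/-- **The input of 651's `psysPol`** for the system of a tower. -/
noncomputable def yTw : PSysY (PSys.tw hZ T K) (2 * P.n₁) where
  y i := (T.map (K.u i)).f h.y₁
  mem i := y₁_mem h (K.u i)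
  cl i := y₁_d h (K.u i)
  res _ _ _ := tri_map T _ _ _ _ _
  fib t i := PSys.Zps.tw hZ T K t i _ _ (y₁_mem h (K.u i))

variable {Y : CD.{v'} k} {g : ∀ i, (S.cd i).Hm Y} {v : X₀.Hm Y}
  (hg : ∀ i a, (g i).f ((K.u i).f a) = v.f a) (H : CCol S.C S.β Y.C g) {f₂ : ℕ}
  {T₀ : Two (toDga (two_ne_zero (α := k)) Y.C) f₂} (hP : P.map v = pairOf T₀)

/-- **The first class** on the system of a tower. -/
noncomputable def etaTw : Eta (PSys.tw hZ T K) (2 * P.n₁) where
  η i := (T.map (K.u i)).f h.y₁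
  deg i := y₁_mem h (K.u i)
  β _ _ _ := tri_map T _ _ _ _ _
  ne i b hb := bne h (X := S.cd) (u := K.u) hg hP i b hb
  pos := by have := P.n₁_pos; omega
  ex := bex h (X := S.cd) (u := K.u) K.hu hg (Col.ofCCol H) hP
  z := bz h (X := S.cd) (u := K.u) K.hu hg (Col.ofCCol H) hP

/-- **The second class** on the system with `[b]`. -/
noncomputable def etaPol (h2 : (2 : k) ≠ 0) :
    Eta (psysPol (PSys.tw hZ T K) (even_two_mul P.n₁) h2 (yTw hZ K h)) (2 * P.n₂) where
  η i := Polynomial.C ((T.map (K.u i)).f h.y₂)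
  deg i := V651.C_mem _ (y₂_mem h (K.u i))
  β i j hij := by
    change mapAlgHom (tri T (K.u i) (K.u j) (S.β i j hij) (K.hu i j hij)).f
      (Polynomial.C ((T.map (K.u i)).f h.y₂)) = Polynomial.C ((T.map (K.u j)).f h.y₂)
    ext n
    rw [coeff_mapAlgHom_apply, coeff_C, coeff_C]
    split_ifs
    · exact tri_map T _ _ _ _ _
    · exact map_zero _
  ne i b hb := bne' h (X := S.cd) (u := K.u) hg hP i b hb
  pos := by have h1 := P.n₁_pos; have h3 := P.n_le; omega
  ex := bex' h (X := S.cd) (u := K.u) K.hu hg (Col.ofCCol H) hP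
  z := bz' h (X := S.cd) (u := K.u) K.hu hg (Col.ofCCol H) hP

end Vale.Agent.P216.V706
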