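import Vale.Agent.P216.V706.B1.PairForm
import Vale.Agent.P216.V754.Tri

/-!
# P216-V, F-BASE: cohomology of the base towers at the finite scales
-/

open Polynomial
open Vale.Agent.P216.V609 Vale.Agent.P216.V651 Vale.Agent.P216.V775
open Vale.Agent.P216.H285V (toDga)
open Vale.Agent.P216.V994 (Base Kz PD Pair pairOf)

universe u v w'

namespace Vale.Agent.P216.V706

section abs

variable {k : Type*} [Field k] {ι : Type*} [Preorder ι] {A : ι → Type*} [∀ i, Ring (A i)]
  [∀ i, Algebra k (A i)] {B : Type*} [Ring B] [Algebra k B]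

/-- A colimit of cdgas. -/
structure Col (C : ∀ i, Cdga k (A i)) (f : ∀ i j, i ≤ j → Cdga.Hom (C i) (C j)) (G : Cdga k B)
    (g : ∀ i, Cdga.Hom (C i) G) : Prop where
  comp : ∀ i j (h : i ≤ j) a, (g j).f ((f i j h).f a) = (g i).f a
  ff : ∀ i j l (h : i ≤ j) (h' : j ≤ l) a,
    (f j l h').f ((f i j h).f a) = (f i l (h.trans h')).f a
  surj : ∀ i m z, z ∈ G.deg m → ∃ j, i ≤ j ∧ ∃ a ∈ (C j).deg m, (g j).f a = z
  inj : ∀ i a, (g i).f a = 0 → ∃ j, ∃ h : i ≤ j, (f i j h).f a = 0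

variable {C : ∀ i, Cdga k (A i)} {f : ∀ i j, i ≤ j → Cdga.Hom (C i) (C j)} {G : Cdga k B}
  {g : ∀ i, Cdga.Hom (C i) G}

theorem Col.eq (h : Col C f G g) {i : ι} {a b : A i} (hab : (g i).f a = (g i).f b) :
    ∃ j, ∃ hij : i ≤ j, (f i j hij).f a = (f i j hij).f b := by
  obtain ⟨j, hij, h1⟩ := h.inj i (a - b) (by rw [map_sub, hab, sub_self])
  exact ⟨j, hij, sub_eq_zero.1 (by rw [← map_sub, h1])⟩

theorem Col.exact_of (h : Col C f G g) {m : ℕ} (hG : G.Z (m + 1) ≤ G.B (m + 1)) {i : ι} {x : A i}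
    (hx : x ∈ (C i).deg (m + 1)) (hdx : (C i).d x = 0) :
    ∃ j, ∃ hij : i ≤ j, ∃ b ∈ (C j).deg m, (C j).d b = (f i j hij).f x := by
  obtain ⟨b, hb, h1⟩ := G.mem_B_succ.1 (hG ((g i).map_Z ⟨hx, hdx⟩))
  obtain ⟨j, hij, a, ha, rfl⟩ := h.surj i m b hb
  obtain ⟨l, hjl, h2⟩ := h.eq (i := j) (a := (C j).d a) (b := (f i j hij).f x)
    (by rw [(g j).d, h1, h.comp])
  exact ⟨l, hij.trans hjl, (f j l hjl).f a, (f j l hjl).deg ha, by
    rw [← (f j l hjl).d, h2, h.ff]⟩

theorem Col.const (h : Col C f G g) (hG : ∀ z ∈ G.Z 0, ∃ c : k, z = c • 1) {i : ι} {x : A i}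
    (hx : x ∈ (C i).deg 0) (hdx : (C i).d x = 0) :
    ∃ j, ∃ hij : i ≤ j, ∃ c : k, (f i j hij).f x = algebraMap k (A j) c := by
  obtain ⟨c, hc⟩ := hG _ ((g i).map_Z ⟨hx, hdx⟩)
  obtain ⟨j, hij, h1⟩ := h.eq (i := i) (a := x) (b := algebraMap k (A i) c)
    (by rw [hc, AlgHom.commutes, Algebra.algebraMap_eq_smul_one])
  exact ⟨j, hij, c, by rw [h1, AlgHom.commutes]⟩

omit [Preorder ι] in
theorem Col.not_exact {m : ℕ} {i : ι} {x : A i} (hx : (g i).f x ∉ G.B (m + 1)) {b : A i}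
    (hb : b ∈ (C i).deg m) : (C i).d b ≠ x := by
  rintro rfl
  exact hx ((g i).map_B ((C i).mem_B_succ.2 ⟨b, hb, rfl⟩))

section pol

variable {m : ℕ} (hm : Even m) (h2 : (2 : k) ≠ 0) {y : ∀ i, A i}
  (hy : ∀ i, y i ∈ (C i).deg (m + 1)) (hdy : ∀ i, (C i).d (y i) = 0)
  {y' : B} (hy' : y' ∈ G.deg (m + 1)) (hdy' : G.d y' = 0)
  (hf : ∀ i j (h : i ≤ j), (f i j h).f (y i) = y j) (hg : ∀ i, (g i).f (y i) = y')

/-- Polynomials over a colimit. -/
theorem Col.pol (h : Col C f G g) : Col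
    (fun i => V651.pol (C i) hm h2 (hy i) (hdy i))
    (fun i j hij => polMap (f i j hij) hm h2 (hy i) (hdy i) (hy j) (hdy j) (hf i j hij))
    (V651.pol G hm h2 hy' hdy')
    (fun i => polMap (g i) hm h2 (hy i) (hdy i) hy' hdy' (hg i)) where
  comp i j hij a := by
    change mapAlgHom (g j).f (mapAlgHom (f i j hij).f a) = mapAlgHom (g i).f a
    ext n
    simp only [coeff_mapAlgHom_apply, h.comp]
  ff i j l hij hjl a := by
    change mapAlgHom (f j l hjl).f (mapAlgHom (f i j hij).f a) = mapAlgHom (f i l _).f a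
    ext n
    simp only [coeff_mapAlgHom_apply, h.ff]
  surj := by
    intro i n z hz
    -- coefficients one at a time
    have key : ∀ N : ℕ, ∃ j, i ≤ j ∧ ∃ a : (A j)[X],
        a ∈ (V651.pol (C j) hm h2 (hy j) (hdy j)).deg n ∧
        ∀ l, (mapAlgHom (g j).f a).coeff l = if l < N then z.coeff l else 0 := by
      intro N
      induction N with
      | zero => exact ⟨i, le_rfl, 0, Submodule.zero_mem _, fun l => by simp⟩
      | succ N ih =>
        obtain ⟨j, hij, a, ha, h1⟩ := ih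
        have h3 : ∃ j', j ≤ j' ∧ ∃ b ∈ (C j').degS (N * m) n, (g j').f b = z.coeff N := by
          rcases G.mem_degS (hz N) with h0 | ⟨q, hq, h1⟩
          · exact ⟨j, le_rfl, 0, Submodule.zero_mem _, by rw [map_zero, h0]⟩
          · obtain ⟨j', hj, b, hb, h4⟩ := h.surj j q _ h1
            exact ⟨j', hj, b, (C j').degS_of hq hb, h4⟩
        obtain ⟨j', hj, b, hb, h4⟩ := h3
        refine ⟨j', hij.trans hj, mapAlgHom (f j j' hj).f a + monomial N b,
          Submodule.add_mem _ ((polMap (f j j' hj) hm h2 (hy j) (hdy j) (hy j') (hdy j')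
            (hf j j' hj)).deg ha) (monomial_mem _ hb), fun l => ?_⟩
        rw [map_add, coeff_add]
        have h5 : (mapAlgHom (g j').f (mapAlgHom (f j j' hj).f a)).coeff l =
            if l < N then z.coeff l else 0 := by
          rw [← h1 l, coeff_mapAlgHom_apply, coeff_mapAlgHom_apply, coeff_mapAlgHom_apply, h.comp]
        rw [h5, coeff_mapAlgHom_apply, coeff_monomial]
        rcases lt_trichotomy l N with h6 | h6 | h6
        · rw [if_pos h6, if_neg h6.ne', map_zero, add_zero, if_pos (by omega)]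
        · subst h6
          rw [if_neg (lt_irrefl _), if_pos rfl, h4, zero_add, if_pos (by omega)]
        · rw [if_neg (by omega), if_neg h6.ne, map_zero, add_zero, if_neg (by omega)]
    obtain ⟨j, hij, a, ha, h1⟩ := key (z.natDegree + 1)
    refine ⟨j, hij, a, ha, ?_⟩
    change mapAlgHom (g j).f a = z
    ext l
    rw [h1]
    split_ifs with h2
    · rfl
    · exact (coeff_eq_zero_of_natDegree_lt (by omega)).symm
  inj := by
    intro i a ha
    have h0 : ∀ l, (g i).f (a.coeff l) = 0 := fun l => by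
      have := congrArg (fun p => coeff p l) ha
      change (mapAlgHom (g i).f a).coeff l = _ at this
      rw [coeff_mapAlgHom_apply] at this
      exact this.trans (coeff_zero l)
    have key : ∀ N : ℕ, ∃ j, ∃ hij : i ≤ j, ∀ l < N, (f i j hij).f (a.coeff l) = 0 := by
      intro N
      induction N with
      | zero => exact ⟨i, le_rfl, fun l hl => absurd hl (Nat.not_lt_zero _)⟩
      | succ N ih =>
        obtain ⟨j, hij, h1⟩ := ih
        obtain ⟨l', hl, h3⟩ := h.inj j ((f i j hij).f (a.coeff N)) (by rw [h.comp, h0])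
        refine ⟨l', hij.trans hl, fun l hlN => ?_⟩
        rw [← h.ff i j l' hij hl]
        rcases Nat.lt_succ_iff_lt_or_eq.1 hlN with h4 | rfl
        · rw [h1 l h4, map_zero]
        · exact h3
    obtain ⟨j, hij, h1⟩ := key (a.natDegree + 1)
    refine ⟨j, hij, ?_⟩
    change mapAlgHom (f i j hij).f a = 0
    ext l
    rw [coeff_mapAlgHom_apply, coeff_zero]
    rcases lt_or_ge l (a.natDegree + 1) with h4 | h4
    · exact h1 l h4
    · rw [coeff_eq_zero_of_natDegree_lt (by omega), map_zero]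

end pol

end abs

end Vale.Agent.P216.V706
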