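import Vale.Agent.P216.V706.FB.Tow

/-!
# P216-V, F-BASE

The base towers `(T.push (u i)).top` at the scales `i`, and `[b]` over them: closed elements of
positive degree below the degree of the class are exact at a later scale, closed elements of degree
`0` are constant at a later scale, the class is never exact.
-/

open Polynomial
open Vale.Agent.P216.V609 Vale.Agent.P216.V651 Vale.Agent.P216.V775
open Vale.Agent.P216.H285V (toDga)
open Vale.Agent.P216.V994 (Base Kz PD Pair pairOf)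
open Vale.Agent.P216.V754 (tri tri_map)

universe u v v' w'

namespace Vale.Agent.P216.V706

section pair

variable {k : Type w'} [Field k] [CharZero k] {X : CD.{v} k}

/-- D4 for a pair. -/
theorem d4_pair {f₂ : ℕ} (T₀ : Two (toDga (two_ne_zero (α := k)) X.C) f₂) {P : Pair X.C}
    (hP : P = pairOf T₀) {T : Tw X} {ê : P.σ → T.top.A} (h : PTw P T ê) :
    D4 T.top.C (two_ne_zero (α := k)) P.n₁ P.n₂ h.y₁ h.y₂ := by
  subst hP
  exact T₀.d4_ptw h

/-- D4 on the germs. -/
theorem d4_push {X₀ : CD.{u} k} {P : Pair X₀.C} {T : Tw X₀} {ê : P.σ → T.top.A} (h : PTw P T ê)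
    (v : X₀.Hm X) {f₂ : ℕ} {T₀ : Two (toDga (two_ne_zero (α := k)) X.C) f₂}
    (hP : P.map v = pairOf T₀) :
    D4 (T.push v).top.C (two_ne_zero (α := k)) P.n₁ P.n₂ ((T.map v).f h.y₁)
      ((T.map v).f h.y₂) := by
  rw [h.map_y₁, h.map_y₂]
  exact d4_pair T₀ hP (PTw.push v h)

end pair

section base

variable {k : Type w'} [Field k] [CharZero k] {X₀ : CD.{u} k} {P : Pair X₀.C}
  {T : Tw X₀} {ê : P.σ → T.top.A} (h : PTw P T ê)

include h in
theorem y₁_mem {Y : CD.{v} k} (φ : X₀.Hm Y) :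
    (T.map φ).f h.y₁ ∈ (T.push φ).top.C.deg (2 * P.n₁ + 1) := (T.map φ).deg h.good₁.mem

theorem y₁_d {Y : CD.{v} k} (φ : X₀.Hm Y) : (T.push φ).top.C.d ((T.map φ).f h.y₁) = 0 :=
  (T.map φ).d_eq h.good₁.closed

theorem y₂_mem {Y : CD.{v} k} (φ : X₀.Hm Y) :
    (T.map φ).f h.y₂ ∈ (T.push φ).top.C.deg (2 * P.n₂ + 1) := (T.map φ).deg h.good₂.mem

theorem y₂_d {Y : CD.{v} k} (φ : X₀.Hm Y) : (T.push φ).top.C.d ((T.map φ).f h.y₂) = 0 :=
  (T.map φ).d_eq h.good₂.closed

/-- the algebra `(T.push φ).top [b]`, `d b = y₁` -/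
noncomputable abbrev pb {Y : CD.{v} k} (φ : X₀.Hm Y) : Cdga k ((T.push φ).top.A)[X] :=
  V651.pol (T.push φ).top.C (even_two_mul P.n₁) two_ne_zero (y₁_mem h φ) (y₁_d h φ)

variable {ι : Type*} [Preorder ι] {X : ι → CD.{v} k} {Y : CD.{v'} k}
  {f : ∀ i j, i ≤ j → (X i).Hm (X j)} {g : ∀ i, (X i).Hm Y} {u : ∀ i, X₀.Hm (X i)}
  {v : X₀.Hm Y} (hu : ∀ i j h a, (f i j h).f ((u i).f a) = (u j).f a)
  (hg : ∀ i a, (g i).f ((u i).f a) = v.f a)

/-- the restrictions of the base towers -/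
abbrev tb (T : Tw X₀) (i j : ι) (hij : i ≤ j) : (T.push (u i)).top.Hm (T.push (u j)).top :=
  tri T (u i) (u j) (f i j hij) (hu i j hij)

/-- the restrictions of the base towers with `[b]` -/
noncomputable abbrev tbb (i j : ι) (hij : i ≤ j) : Cdga.Hom (pb h (u i)) (pb h (u j)) :=
  polMap (tb hu T i j hij) (even_two_mul P.n₁) two_ne_zero (y₁_mem h (u i)) (y₁_d h (u i))
    (y₁_mem h (u j)) (y₁_d h (u j)) (tri_map T _ _ _ _ _)

variable (H : Col (fun i => (X i).C) f Y.C g) {f₂ : ℕ}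
  {T₀ : Two (toDga (two_ne_zero (α := k)) Y.C) f₂} (hP : P.map v = pairOf T₀)

include h hg H hP

/-- **670's `Bex`** for the base towers. -/
theorem bex (i : ι) (m : ℕ) (hm : m < 2 * P.n₁) (x : (T.push (u i)).top.A)
    (hx : x ∈ (T.push (u i)).top.C.deg (m + 1)) (hd : (T.push (u i)).top.C.d x = 0) :
    ∃ j, ∃ hij : i ≤ j, ∃ y ∈ (T.push (u j)).top.C.deg m,
      (T.push (u j)).top.C.d y = (tb hu T i j hij).f x :=
  (H.tw T hu hg).exact_of ((d4_push h v hP).low (m + 1) (by omega) (by omega)) hx hd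

/-- **670's `Bz`** for the base towers. -/
theorem bz (i : ι) (x : (T.push (u i)).top.A) (hx : x ∈ (T.push (u i)).top.C.deg 0)
    (hd : (T.push (u i)).top.C.d x = 0) :
    ∃ j, ∃ hij : i ≤ j, ∃ c : k, (tb hu T i j hij).f x = algebraMap k (T.push (u j)).top.A c :=
  (H.tw T hu hg).const (d4_push h v hP).zero hx hd

omit H [Preorder ι] in
/-- **The first class is not exact** at any scale. -/
theorem bne (i : ι) (b : (T.push (u i)).top.A) (hb : b ∈ (T.push (u i)).top.C.deg (2 * P.n₁)) :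
    (T.push (u i)).top.C.d b ≠ (T.map (u i)).f h.y₁ :=
  Col.not_exact (C := fun i => (T.push (u i)).top.C) (g := fun i => tri T (u i) v (g i) (hg i))
    (by rw [tri_map]; exact (d4_push h v hP).not₁) hb

omit hP in
/-- the colimit of the base towers with `[b]` -/
theorem colb : Col (fun i => pb h (u i)) (tbb h hu) (pb h v)
    (fun i => polMap (tri T (u i) v (g i) (hg i)) (even_two_mul P.n₁) two_ne_zero
      (y₁_mem h (u i)) (y₁_d h (u i)) (y₁_mem h v) (y₁_d h v) (tri_map T _ _ _ _ _)) :=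
  (H.tw T hu hg).pol (even_two_mul P.n₁) two_ne_zero (fun i => y₁_mem h (u i))
    (fun i => y₁_d h (u i)) (y₁_mem h v) (y₁_d h v) (fun _ _ _ => tri_map T _ _ _ _ _)
    (fun _ => tri_map T _ _ _ _ _)

/-- **670's `Bex`** for the base towers with `[b]`. -/
theorem bex' (i : ι) (m : ℕ) (hm : m < 2 * P.n₂) (x : ((T.push (u i)).top.A)[X])
    (hx : x ∈ (pb h (u i)).deg (m + 1)) (hd : (pb h (u i)).d x = 0) :
    ∃ j, ∃ hij : i ≤ j, ∃ y ∈ (pb h (u j)).deg m, (pb h (u j)).d y = (tbb h hu i j hij).f x :=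
  (colb h hu hg H).exact_of ((d4_push h v hP).low' (m + 1) (by omega) (by omega)) hx hd

/-- **670's `Bz`** for the base towers with `[b]`. -/
theorem bz' (i : ι) (x : ((T.push (u i)).top.A)[X]) (hx : x ∈ (pb h (u i)).deg 0)
    (hd : (pb h (u i)).d x = 0) :
    ∃ j, ∃ hij : i ≤ j, ∃ c : k,
      (tbb h hu i j hij).f x = algebraMap k ((T.push (u j)).top.A)[X] c :=
  (colb h hu hg H).const (d4_push h v hP).zero' hx hd

omit H [Preorder ι] in
/-- **The second class is not exact** at any scale. -/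
theorem bne' (i : ι) (b : ((T.push (u i)).top.A)[X]) (hb : b ∈ (pb h (u i)).deg (2 * P.n₂)) :
    (pb h (u i)).d b ≠ Polynomial.C ((T.map (u i)).f h.y₂) :=
  Col.not_exact (C := fun i => pb h (u i)) (G := pb h v)
    (g := fun i => polMap (tri T (u i) v (g i) (hg i)) (even_two_mul P.n₁) two_ne_zero
      (y₁_mem h (u i)) (y₁_d h (u i)) (y₁_mem h v) (y₁_d h v) (tri_map T _ _ _ _ _))
    (by
      have e : mapAlgHom (tri T (u i) v (g i) (hg i)).f (Polynomial.C ((T.map (u i)).f h.y₂)) =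
          Polynomial.C ((T.map v).f h.y₂) := by
        ext n
        rw [coeff_mapAlgHom_apply, coeff_C, coeff_C]
        split_ifs
        · exact tri_map T _ _ _ _ _
        · exact map_zero _
      change mapAlgHom (tri T (u i) v (g i) (hg i)).f (Polynomial.C ((T.map (u i)).f h.y₂)) ∉ _
      rw [e]
      exact (d4_push h v hP).not₂) hb

end base

end Vale.Agent.P216.V706
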