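import Vale.Agent.P216.V706.FB.Abs

/-!
# P216-V, F-BASE: colimits and towers
-/

open Polynomial
open Vale.Agent.P216.V609 Vale.Agent.P216.V651 Vale.Agent.P216.V775
open Vale.Agent.P216.V754 (tri tri_map)

universe u v v' w'

namespace Vale.Agent.P216.V706

variable {k : Type w'} [Field k] {ι : Type*} [Preorder ι]

section ex

variable {X : ι → CD.{v} k} {Y : CD.{v'} k} {f : ∀ i j, i ≤ j → (X i).Hm (X j)}
  {g : ∀ i, (X i).Hm Y}

/-- Colimits and one extension. -/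
theorem Col.ex (h : Col (fun i => (X i).C) f Y.C g) {l : ℕ} (hl : Odd l) {x : ∀ i, (X i).A}
    (hx : ∀ i, x i ∈ (X i).C.deg (l + 1)) (hdx : ∀ i, (X i).C.d (x i) = 0) {y : Y.A}
    (hy : y ∈ Y.C.deg (l + 1)) (hdy : Y.C.d y = 0)
    (hf : ∀ i j (hij : i ≤ j), (f i j hij).f (x i) = x j) (hg : ∀ i, (g i).f (x i) = y) :
    Col (fun i => ((X i).ex hl (hx i) (hdx i)).C)
      (fun i j hij => (f i j hij).exMap hl (hx i) (hdx i) (hx j) (hdx j) (hf i j hij))
      (Y.ex hl hy hdy).C (fun i => (g i).exMap hl (hx i) (hdx i) hy hdy (hg i)) where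
  comp i j hij a := Ex.ext (h.comp i j hij a.1) (h.comp i j hij a.2)
  ff i j l' hij hjl a := Ex.ext (h.ff i j l' hij hjl a.1) (h.ff i j l' hij hjl a.2)
  surj i m z hz := by
    obtain ⟨j, hij, a, ha, h1⟩ := h.surj i m z.1 hz.1
    have h3 : ∃ j', j ≤ j' ∧ ∃ b ∈ (X j').C.degS l m, (g j').f b = z.2 := by
      rcases Y.C.mem_degS hz.2 with h0 | ⟨q, hq, h1⟩
      · exact ⟨j, le_rfl, 0, Submodule.zero_mem _, by rw [map_zero, h0]⟩
      · obtain ⟨j', hj, b, hb, h4⟩ := h.surj j q _ h1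
        exact ⟨j', hj, b, (X j').C.degS_of hq hb, h4⟩
    obtain ⟨j', hj, b, hb, h4⟩ := h3
    exact ⟨j', hij.trans hj, ⟨(f j j' hj).f a, b⟩, ⟨(f j j' hj).deg ha, hb⟩,
      Ex.ext ((h.comp j j' hj a).trans h1) h4⟩
  inj i a ha := by
    obtain ⟨j, hij, h1⟩ := h.inj i a.1 (congrArg Ex.fst ha)
    obtain ⟨j', hj, h3⟩ := h.inj j ((f i j hij).f a.2)
      ((h.comp i j hij a.2).trans (congrArg Ex.snd ha))
    refine ⟨j', hij.trans hj, Ex.ext ?_ ?_⟩
    · change (f i j' _).f a.1 = 0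
      rw [← h.ff i j j' hij hj, h1, map_zero]
    · change (f i j' _).f a.2 = 0
      rw [← h.ff i j j' hij hj, h3]

end ex

/-- **Colimits and towers.** -/
theorem Col.tw {X₀ : CD.{u} k} (T : Tw X₀) {X : ι → CD.{v} k} {Y : CD.{v'} k}
    {f : ∀ i j, i ≤ j → (X i).Hm (X j)} {g : ∀ i, (X i).Hm Y} {u : ∀ i, X₀.Hm (X i)}
    {v : X₀.Hm Y} (hu : ∀ i j h a, (f i j h).f ((u i).f a) = (u j).f a)
    (hg : ∀ i a, (g i).f ((u i).f a) = v.f a) (h : Col (fun i => (X i).C) f Y.C g) :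
    Col (fun i => (T.push (u i)).top.C)
      (fun i j hij => tri T (u i) (u j) (f i j hij) (hu i j hij)) (T.push v).top.C
      (fun i => tri T (u i) v (g i) (hg i)) := by
  induction T generalizing X Y with
  | nil X₀ => exact h
  | cons X₀ l hl x hx hdx T ih =>
    exact ih (X := fun i => (X i).ex hl ((u i).deg hx) ((u i).d_eq hdx))
      (Y := Y.ex hl (v.deg hx) (v.d_eq hdx))
      (fun i j hij a => Ex.ext (hu i j hij a.1) (hu i j hij a.2))
      (fun i a => Ex.ext (hg i a.1) (hg i a.2))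
      (h.ex hl (fun i => (u i).deg hx) (fun i => (u i).d_eq hdx) (v.deg hx) (v.d_eq hdx)
        (fun i j hij => hu i j hij x) (fun i => hg i x))

end Vale.Agent.P216.V706
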